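import Mathlib

/-!
# P038 (H161): closed out-neighbourhoods of sets, boundaries
-/

namespace Vale.Agent.P038.H161

open Finset
open scoped Classical

variable {V : Type*} [Fintype V] {E : V → V → Prop}

/-- Closed out-neighbourhood of a set. -/
noncomputable def cl (E : V → V → Prop) (X : Finset V) : Finset V :=
  univ.filter fun v => ∃ x ∈ X, v = x ∨ E x v

theorem mem_cl {X : Finset V} {v : V} :
    v ∈ cl E X ↔ ∃ x ∈ X, v = x ∨ E x v := by simp [cl]

theorem mem_cl_single {x v : V} : v ∈ cl E {x} ↔ v = x ∨ E x v := by simp [cl]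

theorem mem_cl_of {X : Finset V} {x v : V} (hx : x ∈ X) (h : v = x ∨ E x v) : v ∈ cl E X :=
  mem_cl.2 ⟨x, hx, h⟩

theorem sub_cl (X : Finset V) : X ⊆ cl E X := fun v hv => mem_cl.2 ⟨v, hv, Or.inl rfl⟩

theorem cl_mono {X Y : Finset V} (h : X ⊆ Y) : cl E X ⊆ cl E Y := by
  intro v hv
  obtain ⟨x, hx, hxv⟩ := mem_cl.1 hv
  exact mem_cl.2 ⟨x, h hx, hxv⟩

theorem cl_union (X Y : Finset V) : cl E (X ∪ Y) = cl E X ∪ cl E Y := by
  ext v
  simp only [mem_cl, mem_union]
  constructor
  · rintro ⟨x, hx | hx, h⟩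
    · exact Or.inl ⟨x, hx, h⟩
    · exact Or.inr ⟨x, hx, h⟩
  · rintro (⟨x, hx, h⟩ | ⟨x, hx, h⟩)
    · exact ⟨x, Or.inl hx, h⟩
    · exact ⟨x, Or.inr hx, h⟩

/-- Size of the outer boundary. -/
noncomputable def bd (E : V → V → Prop) (X : Finset V) : ℕ := (cl E X \ X).card

theorem bd_add (X : Finset V) : bd E X + X.card = (cl E X).card :=
  card_sdiff_add_card_eq_card (sub_cl X)

theorem card_cl_union_sdiff (A B F : Finset V) :
    (cl E (A ∪ B) \ F).card = (cl E A \ F).card + ((cl E B \ F) \ cl E A).card := by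
  rw [← card_union_of_disjoint]
  · congr 1
    ext v
    simp only [cl_union, mem_sdiff, mem_union]
    tauto
  · rw [disjoint_left]
    intro v hv hv'
    simp only [mem_sdiff] at hv hv'
    exact hv'.2 hv.1

end Vale.Agent.P038.H161
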