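import Vale.Agent.P038.H161.Cl

/-!
# P038 (H161): helper294's inequality `(G)` for an arc-minimal counterexample, all weights one
-/

namespace Vale.Agent.P038.H161

open Finset
open scoped Classical

variable {V : Type*} [Fintype V] {E : V → V → Prop}

noncomputable def N1 (E : V → V → Prop) (v : V) : Finset V := univ.filter fun u => E v u

noncomputable def N2 (E : V → V → Prop) (v : V) : Finset V :=
  univ.filter fun z => z ≠ v ∧ ¬ E v z ∧ ∃ u, E v u ∧ E u z

theorem mem_N1 {v u : V} : u ∈ N1 E v ↔ E v u := by simp [N1]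

theorem mem_N2 {v z : V} : z ∈ N2 E v ↔ z ≠ v ∧ ¬ E v z ∧ ∃ u, E v u ∧ E u z := by simp [N2]

/-- A counterexample: all second neighbourhoods are smaller than the first ones. -/
def Bad (E : V → V → Prop) : Prop := ∀ v, (N2 E v).card < (N1 E v).card

theorem G_thm (hE : Bad E) (hmin : ∀ E' : V → V → Prop, (∀ u v, E' u v → E u v) → Bad E' →
    ∀ u v, E u v → E' u v) (X : Finset V) (hX : cl E X ≠ X) :
    bd E (cl E X) < bd E X := by
  by_contra hcon
  rw [not_lt] at hcon
  set L : Finset V := cl E X \ X with hL
  let d : Finset V → ℤ := fun T => ((cl E T \ X).card : ℤ) - 2 * T.card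
  have hLne : L.Nonempty := by
    rw [nonempty_iff_ne_empty]
    intro h
    apply hX
    exact Subset.antisymm (sdiff_eq_empty_iff_subset.1 h) (sub_cl X)
  -- `d(L) ≥ d(∅)`
  have hclX : cl E X = X ∪ L := by
    rw [hL]
    ext v
    simp only [mem_union, mem_sdiff]
    constructor
    · intro h
      by_cases hv : v ∈ X
      · exact Or.inl hv
      · exact Or.inr ⟨h, hv⟩
    · rintro (h | h)
      · exact sub_cl X h
      · exact h.1
  have hdL : d L = (bd E (cl E X) : ℤ) - L.card := by
    have h1 : (cl E L \ X).card = bd E (cl E X) + L.card := by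
      unfold bd
      rw [← card_union_of_disjoint]
      · congr 1
        ext v
        simp only [mem_sdiff, mem_union]
        constructor
        · rintro ⟨h1, h2⟩
          by_cases hv : v ∈ cl E X
          · right
            rw [hL]
            exact mem_sdiff.2 ⟨hv, h2⟩
          · left
            refine ⟨?_, hv⟩
            rw [hclX, cl_union]
            exact mem_union_right _ h1
        · rintro (⟨h1, h2⟩ | h)
          · have h3 : v ∈ cl E (X ∪ L) := by
              rw [← hclX]; exact h1
            rw [cl_union, mem_union] at h3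
            rcases h3 with h3 | h3
            · exact absurd h3 h2
            · exact ⟨h3, fun h4 => h2 (sub_cl X h4)⟩
          · refine ⟨sub_cl L h, ?_⟩
            rw [hL] at h
            exact (mem_sdiff.1 h).2
      · rw [disjoint_left]
        intro v hv hv'
        rw [hL] at hv'
        exact (mem_sdiff.1 hv).2 (mem_sdiff.1 hv').1
    show ((cl E L \ X).card : ℤ) - 2 * L.card = _
    rw [h1]
    push_cast
    ring
  have hd0 : d ∅ = 0 := by
    show ((cl E ∅ \ X).card : ℤ) - 2 * (∅ : Finset V).card = 0
    have : cl E (∅ : Finset V) = ∅ := by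
      ext v; simp [cl]
    rw [this]
    simp
  have hdL0 : d ∅ ≤ d L := by
    rw [hd0, hdL]
    have : L.card = bd E X := rfl
    rw [this]
    have : (bd E X : ℤ) ≤ bd E (cl E X) := by exact_mod_cast hcon
    linarith
  obtain ⟨T, hTL, hTne, hTmin⟩ : ∃ T ⊆ L, T ≠ L ∧ ∀ T' ⊆ L, d T ≤ d T' := by
    obtain ⟨T, hT, hmn⟩ := exists_min_image L.powerset d ⟨∅, by simp⟩
    by_cases hTL : T = L
    · refine ⟨∅, empty_subset _, ?_, ?_⟩
      · exact fun h => hLne.ne_empty h.symm
      · intro T' hT'
        calc d ∅ ≤ d L := hdL0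
          _ = d T := by rw [hTL]
          _ ≤ d T' := hmn T' (mem_powerset.2 hT')
    · exact ⟨T, mem_powerset.1 hT, hTL, fun T' hT' => hmn T' (mem_powerset.2 hT')⟩
  -- Hall type inequality
  have hH : ∀ D ⊆ L \ T, 2 * D.card ≤ (cl E D \ (cl E T ∪ X)).card := by
    intro D hD
    have h1 := hTmin (T ∪ D) (union_subset hTL (hD.trans sdiff_subset))
    have h2 : (cl E (T ∪ D) \ X).card
        = (cl E T \ X).card + ((cl E D \ X) \ cl E T).card := card_cl_union_sdiff T D X
    have h3 : (cl E D \ X) \ cl E T = cl E D \ (cl E T ∪ X) := by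
      ext v
      simp only [mem_sdiff, mem_union]
      tauto
    have h4 : (T ∪ D).card = T.card + D.card := by
      apply card_union_of_disjoint
      rw [disjoint_left]
      intro v hv hv'
      exact (mem_sdiff.1 (hD hv')).2 hv
    have h5 : ((cl E T \ X).card : ℤ) - 2 * T.card
        ≤ ((cl E (T ∪ D) \ X).card : ℤ) - 2 * (T ∪ D).card := h1
    rw [h2, h4, h3] at h5
    push_cast at h5
    have h6 : (2 * D.card : ℤ) ≤ (cl E D \ (cl E T ∪ X)).card := by linarith
    exact_mod_cast h6
  -- the smaller graph
  let E' : V → V → Prop := fun v u => E v u ∧ ¬ (v ∈ X ∧ u ∉ X ∧ u ∉ T)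
  have hE' : Bad E' := by
    intro v
    by_cases hv : v ∈ X
    · set D : Finset V := univ.filter fun u => E v u ∧ u ∉ X ∧ u ∉ T with hD
      have hDL : D ⊆ L \ T := by
        intro u hu
        rw [hD, mem_filter] at hu
        rw [mem_sdiff, hL, mem_sdiff]
        exact ⟨⟨mem_cl_of hv (Or.inr hu.2.1), hu.2.2.1⟩, hu.2.2.2⟩
      have hEy := hH D hDL
      set Y : Finset V := cl E D \ (cl E T ∪ X) with hY
      have h1 : (N1 E' v).card + D.card = (N1 E v).card := by
        rw [← card_union_of_disjoint]
        · congr 1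
          ext u
          simp only [mem_union, mem_N1, hD, mem_filter, mem_univ, true_and, E']
          tauto
        · rw [disjoint_left]
          intro u hu hu'
          simp only [mem_N1, E'] at hu
          rw [hD, mem_filter] at hu'
          exact hu.2 ⟨hv, hu'.2.2⟩
      have hD2 : Disjoint (N2 E v) D := by
        rw [disjoint_left]
        intro u hu hu'
        rw [hD, mem_filter] at hu'
        exact (mem_N2.1 hu).2.1 hu'.2.1
      have hYsub : Y ⊆ N2 E v ∪ D := by
        intro z hz
        rw [hY, mem_sdiff, mem_union, not_or] at hz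
        obtain ⟨hz1, hz2, hz3⟩ := hz
        have hzT : z ∉ T := fun h => hz2 (sub_cl T h)
        by_cases hvz : E v z
        · refine mem_union_right _ ?_
          rw [hD, mem_filter]
          exact ⟨mem_univ _, hvz, hz3, hzT⟩
        · refine mem_union_left _ ?_
          obtain ⟨x, hx, hxz⟩ := mem_cl.1 hz1
          rw [hD, mem_filter] at hx
          rcases hxz with rfl | hxz
          · exact absurd hx.2.1 hvz
          · refine mem_N2.2 ⟨?_, hvz, x, hx.2.1, hxz⟩
            rintro rfl
            exact hz3 hv
      have hN2sub : N2 E' v ⊆ (N2 E v ∪ D) \ Y := by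
        intro z hz
        obtain ⟨hz1, hz2, u, hu1, hu2⟩ := mem_N2.1 hz
        rw [mem_sdiff]
        constructor
        · by_cases hvz : E v z
          · refine mem_union_right _ ?_
            rw [hD, mem_filter]
            refine ⟨mem_univ _, hvz, ?_⟩
            by_contra h
            apply hz2
            exact ⟨hvz, fun h' => h h'.2⟩
          · exact mem_union_left _ (mem_N2.2 ⟨hz1, hvz, u, hu1.1, hu2.1⟩)
        · rw [hY, mem_sdiff]
          rintro ⟨-, h2⟩
          rw [mem_union, not_or] at h2
          by_cases huX : u ∈ X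
          · have h3 := hu2.2
            apply h3
            exact ⟨huX, h2.2, fun h => h2.1 (sub_cl T h)⟩
          · have huT : u ∈ T := by
              by_contra h
              exact hu1.2 ⟨hv, huX, h⟩
            exact h2.1 (mem_cl_of huT (Or.inr hu2.1))
      have h2 : (N2 E' v).card + Y.card ≤ (N2 E v).card + D.card := by
        rw [← card_union_of_disjoint hD2, ← card_sdiff_add_card_eq_card hYsub]
        exact Nat.add_le_add_right (card_le_card hN2sub) _
      have h3 := hE v
      omega
    · have h1 : N1 E' v = N1 E v := by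
        ext u
        simp only [mem_N1, E']
        constructor
        · exact fun h => h.1
        · exact fun h => ⟨h, fun h' => hv h'.1⟩
      have h2 : N2 E' v ⊆ N2 E v := by
        intro z hz
        obtain ⟨hz1, hz2, u, hu1, hu2⟩ := mem_N2.1 hz
        refine mem_N2.2 ⟨hz1, ?_, u, hu1.1, hu2.1⟩
        intro h
        exact hz2 ⟨h, fun h' => hv h'.1⟩
      rw [h1]
      exact lt_of_le_of_lt (card_le_card h2) (hE v)
  have hfin := hmin E' (fun u v h => h.1) hE'
  obtain ⟨l, hl⟩ : (L \ T).Nonempty := by
    rw [nonempty_iff_ne_empty]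
    intro h
    exact hTne (Subset.antisymm hTL (sdiff_eq_empty_iff_subset.1 h))
  rw [mem_sdiff, hL, mem_sdiff] at hl
  obtain ⟨⟨hl1, hl2⟩, hl3⟩ := hl
  obtain ⟨x, hx, hxl⟩ := mem_cl.1 hl1
  rcases hxl with rfl | hxl
  · exact hl2 hx
  · exact (hfin x l hxl).2 ⟨hx, hl2, hl3⟩

end Vale.Agent.P038.H161
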