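import Vale.Agent.P038.H161.Cl

/-!
# P038 (H161): the inequality `min inner boundary ≤ min outer boundary`
-/

namespace Vale.Agent.P038.H161

open Finset
open scoped Classical

variable {V : Type*} [Fintype V] {E : V → V → Prop}

/-- Outer pairs. -/
structure OutP (E : V → V → Prop) (U W : V → Finset V) : Prop where
  hU : ∀ a, cl E {a} ⊆ U a
  hW : ∀ b, cl E {b} ⊆ W b
  hd : ∀ a b, a ≠ b → b ∈ U a → a ∈ W b → False

/-- Inner pairs. -/
structure InP (E : V → V → Prop) (Y X : V → Finset V) : Prop where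
  hY : ∀ a, a ∈ Y a
  hX : ∀ b, b ∈ X b
  hd : ∀ a b, a ≠ b → b ∈ cl E (Y a) → a ∈ cl E (X b) → False

noncomputable def tot (E : V → V → Prop) (U W : V → Finset V) : ℕ :=
  ∑ a, bd E (U a) + ∑ b, bd E (W b)

theorem OutP.swap {U W : V → Finset V} (h : OutP E U W) : OutP E W U :=
  ⟨h.hW, h.hU, fun a b hab h1 h2 => h.hd b a hab.symm h2 h1⟩

theorem tot_swap (U W : V → Finset V) : tot E U W = tot E W U := by
  unfold tot
  exact add_comm _ _

/-- Minimal outer pair. -/
structure OptP (E : V → V → Prop) (U W : V → Finset V) : Prop extends OutP E U W where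
  hmin : ∀ U' W', OutP E U' W' → tot E U W ≤ tot E U' W'

theorem OptP.swap {U W : V → Finset V} (h : OptP E U W) : OptP E W U :=
  ⟨h.toOutP.swap, fun U' W' h' => by
    rw [tot_swap W U, tot_swap U' W']
    exact h.hmin _ _ h'.swap⟩

/-- The uncovered pairs in row `a`. -/
noncomputable def Rr (U W : V → Finset V) (a : V) : Finset V :=
  univ.filter fun b => b ∉ U a ∧ a ∉ W b

theorem mem_Rr {U W : V → Finset V} {a b : V} : b ∈ Rr U W a ↔ b ∉ U a ∧ a ∉ W b := by
  simp [Rr]

theorem mem_Rr_swap {U W : V → Finset V} {a b : V} : b ∈ Rr U W a ↔ a ∈ Rr W U b := by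
  rw [mem_Rr, mem_Rr]; exact and_comm

theorem OptP.hall {U W : V → Finset V} (h : OptP E U W) (a : V) (S : Finset V)
    (hS : S ⊆ Rr U W a) : S.card ≤ (cl E S \ cl E (U a)).card := by
  have hout : OutP E (Function.update U a (U a ∪ S)) W := by
    refine ⟨?_, h.hW, ?_⟩
    · intro x
      by_cases hx : x = a
      · subst hx
        rw [Function.update_self]
        exact (h.hU x).trans subset_union_left
      · rw [Function.update_of_ne hx]
        exact h.hU x
    · intro x b hxb h1 h2
      by_cases hx : x = a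
      · subst hx
        rw [Function.update_self, mem_union] at h1
        rcases h1 with h1 | h1
        · exact h.hd x b hxb h1 h2
        · exact (mem_Rr.1 (hS h1)).2 h2
      · rw [Function.update_of_ne hx] at h1
        exact h.hd x b hxb h1 h2
  have hle := h.hmin _ _ hout
  have hbd : bd E (U a) ≤ bd E (U a ∪ S) := by
    by_contra hcon
    rw [not_le] at hcon
    have hlt : ∑ x, bd E (Function.update U a (U a ∪ S) x) < ∑ x, bd E (U x) := by
      refine sum_lt_sum ?_ ⟨a, mem_univ _, ?_⟩
      · intro x _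
        by_cases hx : x = a
        · subst hx
          rw [Function.update_self]
          exact hcon.le
        · rw [Function.update_of_ne hx]
      · rw [Function.update_self]
        exact hcon
    unfold tot at hle
    omega
  have h1 := bd_add (E := E) (U a)
  have h2 := bd_add (E := E) (U a ∪ S)
  have h3 : (U a ∪ S).card = (U a).card + S.card := by
    apply card_union_of_disjoint
    rw [disjoint_left]
    intro v hv hv'
    exact (mem_Rr.1 (hS hv')).1 hv
  have h4 : (cl E (U a ∪ S)).card = (cl E S \ cl E (U a)).card + (cl E (U a)).card := by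
    rw [cl_union, union_comm, card_sdiff_add_card]
  omega

/-! ### Hulls -/

noncomputable def hull (φ : Finset V → ℤ) (G S : Finset V) : ℤ :=
  G.powerset.inf' ⟨∅, by simp⟩ fun T => φ (S ∪ T)

theorem hull_le {φ : Finset V → ℤ} {G S T : Finset V} (hT : T ⊆ G) :
    hull φ G S ≤ φ (S ∪ T) :=
  inf'_le (fun T => φ (S ∪ T)) (mem_powerset.2 hT)

theorem hull_le' {φ : Finset V → ℤ} {G S T : Finset V} (hS : S ⊆ T) (hT : T ⊆ G) :
    hull φ G S ≤ φ T := by
  have := hull_le (φ := φ) (S := S) hT
  rwa [union_eq_right.2 hS] at this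

theorem exists_hull (φ : Finset V → ℤ) {G S : Finset V} (hS : S ⊆ G) :
    ∃ T ⊆ G, S ⊆ T ∧ hull φ G S = φ T := by
  obtain ⟨T, hT, h⟩ := exists_mem_eq_inf' (s := G.powerset) ⟨∅, by simp⟩ (fun T => φ (S ∪ T))
  exact ⟨S ∪ T, union_subset hS (mem_powerset.1 hT), subset_union_left, h⟩

theorem hull_mono {φ : Finset V → ℤ} {G S S' : Finset V} (h : S ⊆ S') (hG : S' ⊆ G) :
    hull φ G S ≤ hull φ G S' := by
  obtain ⟨T, hT, hST, h'⟩ := exists_hull φ hG
  rw [h']
  exact hull_le' (h.trans hST) hT

/-- The column functional with forbidden set `F`. -/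
noncomputable def ph (E : V → V → Prop) (F S : Finset V) : ℤ :=
  ((cl E S \ F).card : ℤ) - S.card

/-- The comparison of increments of hulls. -/
theorem hull_cmp {D R F F' Wb S T Z : Finset V} (hSD : S ⊆ D) (hTR : T ⊆ R)
    (hSR : S ∩ R ⊆ T) (hZD : Z ⊆ D) (hZR : Z ⊆ R) (hDW : ∀ x ∈ D, x ∈ Wb ∨ x ∈ R)
    (hRW : ∀ x ∈ R, x ∉ Wb) (hF' : cl E Wb ⊆ F') (hFF : F ⊆ F') :
    hull (ph E F') R (T ∪ Z) - hull (ph E F') R T
      ≤ hull (ph E F) D (S ∪ Z) - hull (ph E F) D S := by
  obtain ⟨X, hXD, hX, hXe⟩ := exists_hull (ph E F) (union_subset hSD hZD)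
  obtain ⟨Y, hYR, hY, hYe⟩ := exists_hull (ph E F') hTR
  have h1 : hull (ph E F') R (T ∪ Z) ≤ ph E F' (Y ∪ (X ∩ R)) := by
    apply hull_le'
    · apply union_subset (hY.trans subset_union_left)
      intro z hz
      exact mem_union_right _ (mem_inter.2 ⟨hX (mem_union_right _ hz), hZR hz⟩)
    · exact union_subset hYR inter_subset_right
  have h2 : hull (ph E F) D S ≤ ph E F (X ∩ (Y ∪ Wb)) := by
    apply hull_le'
    · intro s hs
      refine mem_inter.2 ⟨hX (mem_union_left _ hs), mem_union.2 ?_⟩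
      rcases hDW s (hSD hs) with h | h
      · exact Or.inr h
      · exact Or.inl (hY (hSR (mem_inter.2 ⟨hs, h⟩)))
    · exact inter_subset_left.trans hXD
  rw [hXe, hYe]
  set X1 := X ∩ (Y ∪ Wb) with hX1
  set Z' := (X ∩ R) \ Y with hZ'
  have e1 : X = X1 ∪ Z' := by
    ext v
    rw [hX1, hZ']
    simp only [mem_union, mem_inter, mem_sdiff]
    constructor
    · intro hv
      rcases hDW v (hXD hv) with h | h
      · exact Or.inl ⟨hv, Or.inr h⟩
      · by_cases hvY : v ∈ Y
        · exact Or.inl ⟨hv, Or.inl hvY⟩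
        · exact Or.inr ⟨⟨hv, h⟩, hvY⟩
    · rintro (h | h)
      · exact h.1
      · exact h.1.1
  have e2 : Y ∪ (X ∩ R) = Y ∪ Z' := by
    rw [hZ']
    exact (union_sdiff_self_eq_union).symm
  have d1 : X.card = X1.card + Z'.card := by
    conv_lhs => rw [e1]
    apply card_union_of_disjoint
    rw [disjoint_left, hX1, hZ']
    intro v hv hv'
    simp only [mem_union, mem_inter, mem_sdiff] at hv hv'
    rcases hv.2 with h | h
    · exact hv'.2 h
    · exact hRW v hv'.1.2 h
  have d2 : (Y ∪ (X ∩ R)).card = Y.card + Z'.card := by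
    rw [e2]
    apply card_union_of_disjoint
    rw [disjoint_left, hZ']
    intro v hv hv'
    exact (mem_sdiff.1 hv').2 hv
  have c1 : (cl E X \ F).card = (cl E X1 \ F).card + ((cl E Z' \ F) \ cl E X1).card := by
    conv_lhs => rw [e1]
    exact card_cl_union_sdiff X1 Z' F
  have c2 : (cl E (Y ∪ (X ∩ R)) \ F').card
      = (cl E Y \ F').card + ((cl E Z' \ F') \ cl E Y).card := by
    rw [e2]
    exact card_cl_union_sdiff Y Z' F'
  have c3 : ((cl E Z' \ F') \ cl E Y).card ≤ ((cl E Z' \ F) \ cl E X1).card := by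
    apply card_le_card
    intro v hv
    simp only [mem_sdiff] at hv ⊢
    refine ⟨⟨hv.1.1, fun h => hv.1.2 (hFF h)⟩, fun h => ?_⟩
    have h' : v ∈ cl E (Y ∪ Wb) := cl_mono (by rw [hX1]; exact inter_subset_right) h
    rw [cl_union, mem_union] at h'
    rcases h' with h' | h'
    · exact hv.2 h'
    · exact hv.1.2 (hF' h')
  unfold ph at h1 h2 ⊢
  rw [d2, c2] at h1
  rw [d1, c1]
  push_cast at h1 h2 ⊢
  have c3' : (((cl E Z' \ F') \ cl E Y).card : ℤ) ≤ (((cl E Z' \ F) \ cl E X1).card : ℤ) := by
    exact_mod_cast c3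
  linarith

/-! ### The sets attached to a vertex `b` -/

/-- New elements of column `b` of `N[U]` when all uncovered pairs are added. -/
noncomputable def DX (E : V → V → Prop) (U W : V → Finset V) (b : V) : Finset V :=
  univ.filter fun a => b ∈ cl E (Rr U W a) ∧ b ∉ cl E (U a)

theorem mem_DX {U W : V → Finset V} {a b : V} :
    a ∈ DX E U W b ↔ b ∈ cl E (Rr U W a) ∧ b ∉ cl E (U a) := by simp [DX]

noncomputable def FF (E : V → V → Prop) (W : V → Finset V) (T : Finset V) : Finset V :=
  univ.filter fun a => ∀ c ∈ T, a ∈ cl E (W c)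

theorem mem_FF {W : V → Finset V} {T : Finset V} {a : V} :
    a ∈ FF E W T ↔ ∀ c ∈ T, a ∈ cl E (W c) := by simp [FF]

/-- Closed in-neighbourhood. -/
noncomputable def inn (E : V → V → Prop) (b : V) : Finset V :=
  univ.filter fun c => b = c ∨ E c b

theorem mem_inn {b c : V} : c ∈ inn E b ↔ b = c ∨ E c b := by simp [inn]

theorem OptP.hallF {U W : V → Finset V} (h : OptP E U W) (T : Finset V) :
    ∀ S : Finset V, (∀ a ∈ S, ∀ c ∈ T, c ∉ U a) → (∀ a ∈ S, ∃ c ∈ T, a ∉ W c) →
      S.card ≤ (cl E S \ FF E W T).card := by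
  induction T using Finset.induction_on with
  | empty =>
    intro S _ h2
    have : S = ∅ := by
      rw [eq_empty_iff_forall_notMem]
      intro a ha
      obtain ⟨c, hc, -⟩ := h2 a ha
      simp at hc
    rw [this]
    simp
  | insert c0 T hc0 ih =>
    intro S h1 h2
    set S1 := S.filter fun a => a ∉ W c0 with hS1
    set S2 := S.filter fun a => ¬ a ∉ W c0 with hS2
    have hcard : S1.card + S2.card = S.card := card_filter_add_card_filter_not _
    have i1 : S1.card ≤ (cl E S1 \ cl E (W c0)).card := by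
      apply h.swap.hall c0 S1
      intro a ha
      rw [hS1, mem_filter] at ha
      exact mem_Rr.2 ⟨ha.2, h1 a ha.1 c0 (mem_insert_self _ _)⟩
    have i2 : S2.card ≤ (cl E S2 \ FF E W T).card := by
      apply ih
      · intro a ha c hc
        rw [hS2, mem_filter] at ha
        exact h1 a ha.1 c (mem_insert_of_mem hc)
      · intro a ha
        rw [hS2, mem_filter] at ha
        obtain ⟨c, hc, hc'⟩ := h2 a ha.1
        rcases mem_insert.1 hc with rfl | hc
        · exact absurd hc' ha.2
        · exact ⟨c, hc, hc'⟩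
    have hdis : Disjoint (cl E S1 \ cl E (W c0)) (cl E S2 \ FF E W T) := by
      rw [disjoint_left]
      intro v hv hv'
      apply (mem_sdiff.1 hv).2
      refine cl_mono ?_ (mem_sdiff.1 hv').1
      intro a ha
      rw [hS2, mem_filter, not_not] at ha
      exact ha.2
    have hsub : (cl E S1 \ cl E (W c0)) ∪ (cl E S2 \ FF E W T)
        ⊆ cl E S \ FF E W (insert c0 T) := by
      apply union_subset
      · intro v hv
        rw [mem_sdiff] at hv ⊢
        refine ⟨cl_mono (filter_subset _ _) hv.1, fun h' => hv.2 ?_⟩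
        exact mem_FF.1 h' c0 (mem_insert_self _ _)
      · intro v hv
        rw [mem_sdiff] at hv ⊢
        refine ⟨cl_mono (filter_subset _ _) hv.1, fun h' => hv.2 ?_⟩
        rw [mem_FF] at h' ⊢
        exact fun c hc => h' c (mem_insert_of_mem hc)
    have := card_le_card hsub
    rw [card_union_of_disjoint hdis] at this
    omega

/-- Facts about `DX`. -/
theorem DX_notU {U W : V → Finset V} {a b c : V} (ha : a ∈ DX E U W b) (hc : c ∈ inn E b) :
    c ∉ U a := by
  intro h
  exact (mem_DX.1 ha).2 (mem_cl_of h (mem_inn.1 hc))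

theorem DX_ex {U W : V → Finset V} {a b : V} (ha : a ∈ DX E U W b) :
    ∃ c ∈ inn E b, c ∈ Rr U W a := by
  obtain ⟨c, hc, hcb⟩ := mem_cl.1 (mem_DX.1 ha).1
  exact ⟨c, mem_inn.2 hcb, hc⟩

/-- The functional `Φ_b` is nonnegative on subsets of `DX b`. -/
theorem OptP.Phi_nonneg {U W : V → Finset V} (h : OptP E U W) (b : V) (S : Finset V)
    (hS : S ⊆ DX E U W b) : 0 ≤ ph E (FF E W (inn E b)) S := by
  have := h.hallF (inn E b) S (fun a ha c hc => DX_notU (hS ha) hc) (fun a ha => by
    obtain ⟨c, hc, hc'⟩ := DX_ex (hS ha)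
    exact ⟨c, hc, (mem_Rr.1 hc').2⟩)
  unfold ph
  have h2 : (S.card : ℤ) ≤ ((cl E S \ FF E W (inn E b)).card : ℤ) := by exact_mod_cast this
  linarith

/-- The row inequality. -/
theorem OptP.row_step {U W : V → Finset V} (h : OptP E U W) (a : V) (A : Finset V) :
    ∑ c, (hull (ph E (cl E (W c))) (Rr W U c) (Rr W U c ∩ insert a A)
        - hull (ph E (cl E (W c))) (Rr W U c) (Rr W U c ∩ A))
      ≤ ∑ b, (hull (ph E (FF E W (inn E b))) (DX E U W b) (DX E U W b ∩ insert a A)
        - hull (ph E (FF E W (inn E b))) (DX E U W b) (DX E U W b ∩ A)) := by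
  set f : V → ℤ := fun c => hull (ph E (cl E (W c))) (Rr W U c) (Rr W U c ∩ insert a A)
        - hull (ph E (cl E (W c))) (Rr W U c) (Rr W U c ∩ A) with hf
  set g : V → ℤ := fun b =>
    hull (ph E (FF E W (inn E b))) (DX E U W b) (DX E U W b ∩ insert a A)
        - hull (ph E (FF E W (inn E b))) (DX E U W b) (DX E U W b ∩ A) with hg
  have hg0 : ∀ b, 0 ≤ g b := by
    intro b
    have := hull_mono (φ := ph E (FF E W (inn E b))) (G := DX E U W b)
      (S := DX E U W b ∩ A) (S' := DX E U W b ∩ insert a A)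
      (inter_subset_inter_left (subset_insert _ _)) inter_subset_left
    simp only [hg]
    linarith
  have hf0 : ∀ c, c ∉ Rr U W a → f c = 0 := by
    intro c hc
    have : Rr W U c ∩ insert a A = Rr W U c ∩ A := by
      ext v
      simp only [mem_inter, mem_insert]
      constructor
      · rintro ⟨h1, rfl | h2⟩
        · exact absurd (mem_Rr_swap.2 h1) hc
        · exact ⟨h1, h2⟩
      · rintro ⟨h1, h2⟩
        exact ⟨h1, Or.inr h2⟩
    simp only [hf, this, sub_self]
  have hfg : ∀ c ∈ Rr U W a, ∀ b ∈ cl E {c} \ cl E (U a), f c ≤ g b := by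
    intro c hc b hb
    rw [mem_sdiff, mem_cl_single] at hb
    have hcb : c ∈ inn E b := mem_inn.2 hb.1
    have haD : a ∈ DX E U W b := mem_DX.2 ⟨mem_cl_of hc hb.1, hb.2⟩
    have haR : a ∈ Rr W U c := mem_Rr_swap.1 hc
    have key := hull_cmp (E := E) (D := DX E U W b) (R := Rr W U c)
      (F := FF E W (inn E b)) (F' := cl E (W c)) (Wb := W c) (S := DX E U W b ∩ A)
      (T := Rr W U c ∩ A) (Z := {a}) inter_subset_left inter_subset_left
      (by
        intro v hv
        simp only [mem_inter] at hv ⊢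
        exact ⟨hv.2, hv.1.2⟩)
      (singleton_subset_iff.2 haD) (singleton_subset_iff.2 haR)
      (by
        intro x hx
        by_cases hxW : x ∈ W c
        · exact Or.inl hxW
        · exact Or.inr (mem_Rr.2 ⟨hxW, DX_notU hx hcb⟩))
      (fun x hx => (mem_Rr.1 hx).1) (Subset.refl _)
      (by
        intro v hv
        exact mem_FF.1 hv c hcb)
    have e1 : Rr W U c ∩ insert a A = (Rr W U c ∩ A) ∪ {a} := by
      ext v
      simp only [mem_inter, mem_insert, mem_union, mem_singleton]
      constructor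
      · rintro ⟨h1, h2 | h2⟩
        · exact Or.inr h2
        · exact Or.inl ⟨h1, h2⟩
      · rintro (⟨h1, h2⟩ | rfl)
        · exact ⟨h1, Or.inr h2⟩
        · exact ⟨haR, Or.inl rfl⟩
    have e2 : DX E U W b ∩ insert a A = (DX E U W b ∩ A) ∪ {a} := by
      ext v
      simp only [mem_inter, mem_insert, mem_union, mem_singleton]
      constructor
      · rintro ⟨h1, h2 | h2⟩
        · exact Or.inr h2
        · exact Or.inl ⟨h1, h2⟩
      · rintro (⟨h1, h2⟩ | rfl)
        · exact ⟨h1, Or.inr h2⟩
        · exact ⟨haD, Or.inl rfl⟩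
    simp only [hf, hg, e1, e2]
    exact key
  -- Hall
  let t : {c // c ∈ Rr U W a} → Finset V := fun c => cl E {c.1} \ cl E (U a)
  obtain ⟨m, hm, hmt⟩ := (Finset.all_card_le_biUnion_card_iff_exists_injective t).1 (by
    intro s
    have h1 := h.hall a (s.map ⟨Subtype.val, Subtype.val_injective⟩) (by
      intro v hv
      rw [mem_map] at hv
      obtain ⟨x, -, rfl⟩ := hv
      exact x.2)
    rw [card_map] at h1
    refine h1.trans (card_le_card ?_)
    intro v hv
    rw [mem_sdiff] at hv
    obtain ⟨x, hx, hxv⟩ := mem_cl.1 hv.1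
    rw [mem_map] at hx
    obtain ⟨y, hy, rfl⟩ := hx
    rw [mem_biUnion]
    refine ⟨y, hy, ?_⟩
    simp only [t, mem_sdiff]
    exact ⟨mem_cl_single.2 hxv, hv.2⟩)
  calc ∑ c, f c = ∑ c ∈ Rr U W a, f c := by
        symm
        apply sum_subset (subset_univ _)
        intro c _ hc
        exact hf0 c hc
    _ = ∑ c : {c // c ∈ Rr U W a}, f c.1 := (sum_coe_sort (Rr U W a) f).symm
    _ ≤ ∑ c : {c // c ∈ Rr U W a}, g (m c) := by
        apply sum_le_sum
        intro c _
        exact hfg c.1 c.2 (m c) (hmt c)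
    _ = ∑ b ∈ univ.map ⟨m, hm⟩, g b := by
        rw [sum_map]
        rfl
    _ ≤ ∑ b, g b := by
        apply sum_le_sum_of_subset_of_nonneg (subset_univ _)
        intro b _ _
        exact hg0 b

theorem OptP.core {U W : V → Finset V} (h : OptP E U W) :
    ∑ c, ph E (cl E (W c)) (Rr W U c) ≤ ∑ b, ph E (FF E W (inn E b)) (DX E U W b) := by
  have main : ∀ A : Finset V,
      ∑ c, hull (ph E (cl E (W c))) (Rr W U c) (Rr W U c ∩ A)
        ≤ ∑ b, hull (ph E (FF E W (inn E b))) (DX E U W b) (DX E U W b ∩ A) := by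
    intro A
    induction A using Finset.induction_on with
    | empty =>
      have h1 : ∑ c, hull (ph E (cl E (W c))) (Rr W U c) (Rr W U c ∩ ∅) ≤ 0 := by
        apply sum_nonpos
        intro c _
        have := hull_le' (φ := ph E (cl E (W c))) (G := Rr W U c) (S := Rr W U c ∩ ∅)
          (T := ∅) (by simp) (by simp)
        refine this.trans ?_
        have : cl E (∅ : Finset V) = ∅ := by ext v; simp [cl]
        simp [ph, this]
      have h2 : 0 ≤ ∑ b, hull (ph E (FF E W (inn E b))) (DX E U W b) (DX E U W b ∩ ∅) := by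
        apply sum_nonneg
        intro b _
        obtain ⟨T, hT, -, h3⟩ := exists_hull (ph E (FF E W (inn E b)))
          (G := DX E U W b) (S := DX E U W b ∩ ∅) (by simp)
        rw [h3]
        exact h.Phi_nonneg b T hT
      linarith
    | insert a A ha ih =>
      have := h.row_step a A
      rw [sum_sub_distrib, sum_sub_distrib] at this
      linarith
  have h1 := main univ
  simp only [inter_univ] at h1
  have h2 : ∀ c, hull (ph E (cl E (W c))) (Rr W U c) (Rr W U c)
      = ph E (cl E (W c)) (Rr W U c) := by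
    intro c
    obtain ⟨T, hT, hT', h3⟩ := exists_hull (ph E (cl E (W c))) (Subset.refl (Rr W U c))
    rw [h3, Subset.antisymm hT hT']
  have h3 : ∀ b, hull (ph E (FF E W (inn E b))) (DX E U W b) (DX E U W b)
      = ph E (FF E W (inn E b)) (DX E U W b) := by
    intro b
    obtain ⟨T, hT, hT', h3⟩ := exists_hull (ph E (FF E W (inn E b)))
      (Subset.refl (DX E U W b))
    rw [h3, Subset.antisymm hT hT']
  simp only [h2, h3] at h1
  exact h1

end Vale.Agent.P038.H161
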