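import Vale.Agent.P038.H161.IO

/-!
# P038 (H161): the inner pair attached to a minimal outer pair
-/

namespace Vale.Agent.P038.H161

open Finset
open scoped Classical

variable {V : Type*} [Fintype V] {E : V → V → Prop}

/-- The dual family. -/
noncomputable def dY (E : V → V → Prop) (U W : V → Finset V) (a : V) : Finset V :=
  univ.filter fun b => b = a ∨ a ∉ cl E (W b ∪ Rr W U b)

theorem mem_dY {U W : V → Finset V} {a b : V} :
    b ∈ dY E U W a ↔ b = a ∨ a ∉ cl E (W b ∪ Rr W U b) := by simp [dY]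

theorem OutP.inP (hirr : ∀ a, ¬ E a a) (hasym : ∀ a b, E a b → ¬ E b a)
    {U W : V → Finset V} (h : OutP E U W) : InP E (dY E U W) (dY E W U) := by
  refine ⟨fun a => mem_dY.2 (Or.inl rfl), fun b => mem_dY.2 (Or.inl rfl), ?_⟩
  intro a b hab h1 h2
  obtain ⟨b', hb', hb⟩ := mem_cl.1 h1
  obtain ⟨a', ha', ha⟩ := mem_cl.1 h2
  rw [mem_dY] at hb' ha'
  by_cases hb'a : b' = a
  · subst hb'a
    by_cases ha'b : a' = b
    · subst ha'b
      rcases hb with hb | hb
      · exact hab hb.symm
      · rcases ha with ha | ha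
        · exact hab ha
        · exact hasym _ _ hb ha
    · rcases ha' with ha' | ha'
      · exact ha'b ha'
      · apply ha'
        have h3 : b' ∈ U a' := h.hU a' (mem_cl_single.2 ha)
        exact mem_cl_of (mem_union_left _ h3) hb
  · rcases hb' with hb' | hb'
    · exact hb'a hb'
    · by_cases ha'b : a' = b
      · subst ha'b
        apply hb'
        have h3 : a' ∈ W b' := h.hW b' (mem_cl_single.2 hb)
        exact mem_cl_of (mem_union_left _ h3) ha
      · rcases ha' with ha' | ha'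
        · exact ha'b ha'
        · by_cases hU : b' ∈ U a'
          · exact ha' (mem_cl_of (mem_union_left _ hU) hb)
          · by_cases hW : a' ∈ W b'
            · exact hb' (mem_cl_of (mem_union_left _ hW) ha)
            · exact ha' (mem_cl_of (mem_union_right _ (mem_Rr.2 ⟨hU, hW⟩)) hb)

/-- The set `K`. -/
def KK (E : V → V → Prop) (U W : V → Finset V) (a b : V) : Prop :=
  (∃ a', (a = a' ∨ E a' a) ∧ b ∉ cl E (U a')) ∧ (∃ b', (b = b' ∨ E b' b) ∧ a ∉ cl E (W b'))

theorem KK_swap {U W : V → Finset V} {a b : V} (h : KK E U W a b) : KK E W U b a :=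
  ⟨h.2, h.1⟩

theorem KK_unc {U W : V → Finset V} (h : OutP E U W) {a b : V} (hK : KK E U W a b) :
    b ∉ cl E (dY E U W a) := by
  obtain ⟨⟨a', ha', hb⟩, -⟩ := hK
  intro h1
  obtain ⟨v, hv, hvb⟩ := mem_cl.1 h1
  rw [mem_dY] at hv
  rcases hv with rfl | hv
  · apply hb
    exact mem_cl_of (h.hU a' (mem_cl_single.2 ha')) hvb
  · apply hb
    refine mem_cl_of (x := v) ?_ hvb
    by_contra hU
    by_cases hW : a' ∈ W v
    · exact hv (mem_cl_of (mem_union_left _ hW) ha')
    · exact hv (mem_cl_of (mem_union_right _ (mem_Rr.2 ⟨hW, hU⟩)) ha')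

theorem KK_ne {U W : V → Finset V} (h : OutP E U W) {a b : V} (hK : KK E U W a b) : a ≠ b := by
  rintro rfl
  exact KK_unc h hK (sub_cl _ (mem_dY.2 (Or.inl rfl)))

/-- indicator -/
noncomputable def ι (p : Prop) : ℤ := if p then 1 else 0

theorem ι_true {p : Prop} (h : p) : ι p = 1 := if_pos h
theorem ι_false {p : Prop} (h : ¬ p) : ι p = 0 := if_neg h
theorem ι_nonneg (p : Prop) : 0 ≤ ι p := by
  unfold ι; split_ifs <;> norm_num
theorem ι_le_one (p : Prop) : ι p ≤ 1 := by
  unfold ι; split_ifs <;> norm_num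

theorem card_filter_ι (p : V → Prop) : ((univ.filter p).card : ℤ) = ∑ v, ι (p v) := by
  unfold ι
  rw [card_filter]
  push_cast
  rfl

theorem card_eq_ι (S : Finset V) : (S.card : ℤ) = ∑ v, ι (v ∈ S) := by
  rw [← card_filter_ι]
  congr 2
  ext v
  simp

theorem bd_ι (X : Finset V) : (bd E X : ℤ) = ∑ v, (ι (v ∈ cl E X) - ι (v ∈ X)) := by
  have h := bd_add (E := E) X
  have h' : (bd E X : ℤ) = (cl E X).card - X.card := by
    rw [← h]
    push_cast
    ring
  rw [h', card_eq_ι, card_eq_ι, sum_sub_distrib]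

/-- Pointwise inequality. -/
theorem pointwise (hirr : ∀ a, ¬ E a a) (hasym : ∀ a b, E a b → ¬ E b a)
    {U W : V → Finset V} (h : OutP E U W) (a b : V) :
    (ι (b ∈ cl E (dY E U W a)) - ι (b ∈ dY E U W a))
      + (ι (a ∈ cl E (dY E W U b)) - ι (a ∈ dY E W U b))
      + ι (KK E U W a b) + ι (b ∈ Rr U W a)
    ≤ (ι (b ∈ cl E (U a)) - ι (b ∈ U a)) + (ι (a ∈ cl E (W b)) - ι (a ∈ W b))
      + ι (a ∈ DX E U W b) + ι (a ∈ cl E (Rr W U b) \ cl E (W b)) := by
  by_cases hab : a = b
  · subst hab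
    have e1 : a ∈ dY E U W a := mem_dY.2 (Or.inl rfl)
    have e2 : a ∈ dY E W U a := mem_dY.2 (Or.inl rfl)
    have e3 : a ∈ U a := h.hU a (mem_cl_single.2 (Or.inl rfl))
    have e4 : a ∈ W a := h.hW a (mem_cl_single.2 (Or.inl rfl))
    rw [ι_true e1, ι_true (sub_cl _ e1), ι_true e2, ι_true (sub_cl _ e2), ι_true e3,
      ι_true (sub_cl _ e3), ι_true e4, ι_true (sub_cl _ e4),
      ι_false (fun hK : KK E U W a a => KK_ne h hK rfl),
      ι_false (fun hR : a ∈ Rr U W a => (mem_Rr.1 hR).1 e3)]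
    have := ι_nonneg (a ∈ DX E U W a)
    have := ι_nonneg (a ∈ cl E (Rr W U a) \ cl E (W a))
    linarith
  · have hin := h.inP hirr hasym
    have h1 : ι (b ∈ cl E (dY E U W a)) + ι (a ∈ cl E (dY E W U b)) + ι (KK E U W a b) ≤ 1 := by
      by_cases hK : KK E U W a b
      · rw [ι_true hK, ι_false (KK_unc h hK), ι_false (KK_unc h.swap (KK_swap hK))]
        norm_num
      · rw [ι_false hK]
        by_cases hy : b ∈ cl E (dY E U W a)
        · rw [ι_true hy, ι_false (fun hx => hin.hd a b hab hy hx)]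
          norm_num
        · rw [ι_false hy]
          have := ι_le_one (a ∈ cl E (dY E W U b))
          linarith
    have h2 : ι (b ∈ dY E U W a)
        = 1 - ι (a ∈ cl E (W b)) - ι (a ∈ cl E (Rr W U b) \ cl E (W b)) := by
      by_cases hw : a ∈ cl E (W b)
      · have e : b ∉ dY E U W a := by
          rw [mem_dY, cl_union, mem_union]
          rintro (h' | h')
          · exact hab h'.symm
          · exact h' (Or.inl hw)
        rw [ι_false e, ι_true hw, ι_false (fun h' => (mem_sdiff.1 h').2 hw)]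
        norm_num
      · by_cases hr : a ∈ cl E (Rr W U b)
        · have e : b ∉ dY E U W a := by
            rw [mem_dY, cl_union, mem_union]
            rintro (h' | h')
            · exact hab h'.symm
            · exact h' (Or.inr hr)
          rw [ι_false e, ι_false hw, ι_true (mem_sdiff.2 ⟨hr, hw⟩)]
          norm_num
        · have e : b ∈ dY E U W a := by
            rw [mem_dY, cl_union, mem_union]
            exact Or.inr (fun h' => h'.elim hw hr)
          rw [ι_true e, ι_false hw, ι_false (fun h' => hr (mem_sdiff.1 h').1)]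
          norm_num
    have h3 : ι (a ∈ dY E W U b)
        = 1 - ι (b ∈ cl E (U a)) - ι (a ∈ DX E U W b) := by
      by_cases hw : b ∈ cl E (U a)
      · have e : a ∉ dY E W U b := by
          rw [mem_dY, cl_union, mem_union]
          rintro (h' | h')
          · exact hab h'
          · exact h' (Or.inl hw)
        rw [ι_false e, ι_true hw, ι_false (fun h' => (mem_DX.1 h').2 hw)]
        norm_num
      · by_cases hr : b ∈ cl E (Rr U W a)
        · have e : a ∉ dY E W U b := by
            rw [mem_dY, cl_union, mem_union]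
            rintro (h' | h')
            · exact hab h'
            · exact h' (Or.inr hr)
          rw [ι_false e, ι_false hw, ι_true (mem_DX.2 ⟨hr, hw⟩)]
          norm_num
        · have e : a ∈ dY E W U b := by
            rw [mem_dY, cl_union, mem_union]
            exact Or.inr (fun h' => h'.elim hw hr)
          rw [ι_true e, ι_false hw, ι_false (fun h' => hr (mem_DX.1 h').1)]
          norm_num
    have h4 : ι (b ∈ U a) + ι (a ∈ W b) + ι (b ∈ Rr U W a) = 1 := by
      by_cases hu : b ∈ U a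
      · rw [ι_true hu, ι_false (fun hw => h.hd a b hab hu hw),
          ι_false (fun hr => (mem_Rr.1 hr).1 hu)]
        norm_num
      · by_cases hw : a ∈ W b
        · rw [ι_false hu, ι_true hw, ι_false (fun hr => (mem_Rr.1 hr).2 hw)]
          norm_num
        · rw [ι_false hu, ι_false hw, ι_true (mem_Rr.2 ⟨hu, hw⟩)]
          norm_num
    linarith

theorem KK_card {U W : V → Finset V} (b : V) :
    (cl E (DX E U W b) \ FF E W (inn E b)).card ≤ (univ.filter fun a => KK E U W a b).card := by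
  apply card_le_card
  intro a ha
  rw [mem_sdiff] at ha
  rw [mem_filter]
  refine ⟨mem_univ _, ?_, ?_⟩
  · obtain ⟨a', ha', h⟩ := mem_cl.1 ha.1
    exact ⟨a', h, (mem_DX.1 ha').2⟩
  · have h := ha.2
    rw [mem_FF] at h
    push Not at h
    obtain ⟨c, hc, hc'⟩ := h
    exact ⟨c, mem_inn.1 hc, hc'⟩

/-- **The inequality (IO).** -/
theorem OptP.IO (hirr : ∀ a, ¬ E a a) (hasym : ∀ a b, E a b → ¬ E b a)
    {U W : V → Finset V} (h : OptP E U W) :
    InP E (dY E U W) (dY E W U) ∧ tot E (dY E U W) (dY E W U) ≤ tot E U W := by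
  refine ⟨h.toOutP.inP hirr hasym, ?_⟩
  have hsum : ∑ a, ∑ b, ((ι (b ∈ cl E (dY E U W a)) - ι (b ∈ dY E U W a))
      + (ι (a ∈ cl E (dY E W U b)) - ι (a ∈ dY E W U b))
      + ι (KK E U W a b) + ι (b ∈ Rr U W a))
    ≤ ∑ a, ∑ b, ((ι (b ∈ cl E (U a)) - ι (b ∈ U a)) + (ι (a ∈ cl E (W b)) - ι (a ∈ W b))
      + ι (a ∈ DX E U W b) + ι (a ∈ cl E (Rr W U b) \ cl E (W b))) :=
    sum_le_sum fun a _ => sum_le_sum fun b _ => pointwise hirr hasym h.toOutP a b
  have t1 : (tot E (dY E U W) (dY E W U) : ℤ)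
      = ∑ a, ∑ b, (ι (b ∈ cl E (dY E U W a)) - ι (b ∈ dY E U W a))
        + ∑ a, ∑ b, (ι (a ∈ cl E (dY E W U b)) - ι (a ∈ dY E W U b)) := by
    rw [sum_comm (f := fun a b => ι (a ∈ cl E (dY E W U b)) - ι (a ∈ dY E W U b))]
    unfold tot
    push_cast
    simp only [bd_ι]
  have t2 : (tot E U W : ℤ)
      = ∑ a, ∑ b, (ι (b ∈ cl E (U a)) - ι (b ∈ U a))
        + ∑ a, ∑ b, (ι (a ∈ cl E (W b)) - ι (a ∈ W b)) := by
    rw [sum_comm (f := fun a b => ι (a ∈ cl E (W b)) - ι (a ∈ W b))]
    unfold tot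
    push_cast
    simp only [bd_ι]
  have t3 : ∑ a, ∑ b, ι (KK E U W a b)
      = ∑ b, ((univ.filter fun a => KK E U W a b).card : ℤ) := by
    rw [sum_comm]
    exact sum_congr rfl fun b _ => (card_filter_ι _).symm
  have t4 : ∑ a, ∑ b, ι (b ∈ Rr U W a) = ∑ b, ((Rr W U b).card : ℤ) := by
    rw [sum_comm]
    refine sum_congr rfl fun b _ => ?_
    rw [card_eq_ι]
    refine sum_congr rfl fun a _ => ?_
    rw [mem_Rr_swap]
  have t5 : ∑ a, ∑ b, ι (a ∈ DX E U W b) = ∑ b, ((DX E U W b).card : ℤ) := by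
    rw [sum_comm]
    exact sum_congr rfl fun b _ => (card_eq_ι _).symm
  have t6 : ∑ a, ∑ b, ι (a ∈ cl E (Rr W U b) \ cl E (W b))
      = ∑ b, ((cl E (Rr W U b) \ cl E (W b)).card : ℤ) := by
    rw [sum_comm]
    exact sum_congr rfl fun b _ => (card_eq_ι _).symm
  simp only [sum_add_distrib] at hsum
  rw [t3, t4, t5, t6] at hsum
  have hcore := h.core
  unfold ph at hcore
  rw [sum_sub_distrib, sum_sub_distrib] at hcore
  have hK : ∑ b, ((cl E (DX E U W b) \ FF E W (inn E b)).card : ℤ)
      ≤ ∑ b, ((univ.filter fun a => KK E U W a b).card : ℤ) :=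
    sum_le_sum fun b _ => by exact_mod_cast KK_card b
  have : (tot E (dY E U W) (dY E W U) : ℤ) ≤ tot E U W := by
    rw [t1, t2]
    linarith
  exact_mod_cast this

end Vale.Agent.P038.H161
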