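import Vale.Agent.P038.H161.Pair
import Vale.Agent.P038.H161.G

/-!
# P038 (H161): Seymour's second neighbourhood conjecture
-/

namespace Vale.Agent.P038.H161

open Finset
open scoped Classical

variable {V : Type*} [Fintype V]

/-- There is an arc-minimal counterexample below every counterexample. -/
theorem exists_min (E : V → V → Prop) (hE : Bad E) :
    ∃ E' : V → V → Prop, (∀ u v, E' u v → E u v) ∧ Bad E' ∧
      ∀ E'' : V → V → Prop, (∀ u v, E'' u v → E' u v) → Bad E'' → ∀ u v, E' u v → E'' u v := by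
  obtain ⟨E', ⟨h1, h2⟩, h3⟩ := Set.exists_min_image
    {F : V → V → Prop | (∀ u v, F u v → E u v) ∧ Bad F}
    (fun F => (univ.filter fun p : V × V => F p.1 p.2).card) (Set.toFinite _)
    ⟨E, fun _ _ h => h, hE⟩
  refine ⟨E', h1, h2, ?_⟩
  intro E'' h4 h5 u v huv
  have h6 := h3 E'' ⟨fun u v h => h1 u v (h4 u v h), h5⟩
  have h7 : (univ.filter fun p : V × V => E'' p.1 p.2)
      ⊆ univ.filter fun p : V × V => E' p.1 p.2 := by
    intro p hp
    simp only [mem_filter, mem_univ, true_and] at hp ⊢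
    exact h4 _ _ hp
  have h8 := eq_of_subset_of_card_le h7 h6
  have h9 : (u, v) ∈ univ.filter fun p : V × V => E' p.1 p.2 := by
    simp [huv]
  rw [← h8] at h9
  simpa using h9

/-- There is no counterexample. -/
theorem no_bad [Nonempty V] (E : V → V → Prop) (hirr : ∀ a, ¬ E a a)
    (hasym : ∀ a b, E a b → ¬ E b a) : ¬ Bad E := by
  intro hbad0
  obtain ⟨E', hE'E, hbad, hmin⟩ := exists_min E hbad0
  have hirr' : ∀ a, ¬ E' a a := fun a h => hirr a (hE'E a a h)
  have hasym' : ∀ a b, E' a b → ¬ E' b a := fun a b h h' => hasym a b (hE'E a b h) (hE'E b a h')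
  have hG := G_thm hbad hmin
  have hG' : ∀ X : Finset V, bd E' (cl E' X) ≤ bd E' X := by
    intro X
    by_cases hX : cl E' X = X
    · rw [hX]
    · exact (hG X hX).le
  -- a minimal outer pair
  have hout0 : OutP E' (fun a => cl E' {a}) (fun b => cl E' {b}) := by
    refine ⟨fun a => Subset.refl _, fun b => Subset.refl _, ?_⟩
    intro a b hab h1 h2
    rw [mem_cl_single] at h1 h2
    rcases h1 with h1 | h1
    · exact hab h1.symm
    · rcases h2 with h2 | h2
      · exact hab h2
      · exact hasym' a b h1 h2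
  obtain ⟨⟨U, W⟩, hUW, hUWmin⟩ := Set.exists_min_image
    {p : (V → Finset V) × (V → Finset V) | OutP E' p.1 p.2}
    (fun p => tot E' p.1 p.2) (Set.toFinite _) ⟨(_, _), hout0⟩
  have hopt : OptP E' U W := ⟨hUW, fun U' W' h' => hUWmin (U', W') h'⟩
  obtain ⟨hin, hle⟩ := hopt.IO hirr' hasym'
  set Y := dY E' U W with hY
  set X := dY E' W U with hX
  -- the shifted pair is an outer pair
  have hout : OutP E' (fun a => cl E' (Y a)) (fun b => cl E' (X b)) := by
    refine ⟨fun a => ?_, fun b => ?_, fun a b hab h1 h2 => hin.hd a b hab h1 h2⟩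
    · exact cl_mono (singleton_subset_iff.2 (hin.hY a))
    · exact cl_mono (singleton_subset_iff.2 (hin.hX b))
  have hle2 := hopt.hmin _ _ hout
  -- strictness
  obtain ⟨a0, ha0⟩ : ∃ a, cl E' (Y a) ≠ Y a := by
    by_contra hcon
    push Not at hcon
    obtain ⟨C, ⟨hCne, hCcl⟩, hCmin⟩ := Set.exists_min_image
      {C : Finset V | C.Nonempty ∧ cl E' C = C} (fun C => C.card) (Set.toFinite _)
      ⟨univ, univ_nonempty, Subset.antisymm (subset_univ _) (sub_cl _)⟩
    obtain ⟨a, ha⟩ := hCne
    have hout1 : 0 < (N1 E' a).card := lt_of_le_of_lt (Nat.zero_le _) (hbad a)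
    obtain ⟨b, hb⟩ := card_pos.1 hout1
    rw [mem_N1] at hb
    have hbC : b ∈ C := by
      rw [← hCcl]
      exact mem_cl_of ha (Or.inr hb)
    have hcap : cl E' (Y b ∩ C) = Y b ∩ C := by
      apply Subset.antisymm
      · apply subset_inter
        · have := cl_mono (E := E') (X := Y b ∩ C) (Y := Y b) inter_subset_left
          rwa [hcon b] at this
        · have := cl_mono (E := E') (X := Y b ∩ C) (Y := C) inter_subset_right
          rwa [hCcl] at this
      · exact sub_cl _
    have hcard := hCmin (Y b ∩ C) ⟨⟨b, mem_inter.2 ⟨hin.hY b, hbC⟩⟩, hcap⟩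
    have heq : Y b ∩ C = C := eq_of_subset_of_card_le inter_subset_right hcard
    have haY : a ∈ Y b := by
      have : a ∈ Y b ∩ C := by rw [heq]; exact ha
      exact (mem_inter.1 this).1
    refine hin.hd b a ?_ (sub_cl _ haY) ?_
    · rintro rfl
      exact hirr' _ hb
    · exact mem_cl_of (hin.hX a) (Or.inr hb)
  have hlt : tot E' (fun a => cl E' (Y a)) (fun b => cl E' (X b)) < tot E' Y X := by
    unfold tot
    apply add_lt_add_of_lt_of_le
    · exact sum_lt_sum (fun a _ => hG' (Y a)) ⟨a0, mem_univ _, hG (Y a0) ha0⟩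
    · exact sum_le_sum fun b _ => hG' (X b)
  omega

end Vale.Agent.P038.H161
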